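import Mathlib

/-!
Orthogonal pairs between two planar sets with small sumsets, by ordering the directions
(the argument of Solymosi for multiplicative energy), and pinned distances for planar sets of
small doubling.
-/

open Finset
open scoped Pointwise

namespace Vale.Agent.Doubling

/-- The elements of `X` with slope `s`. -/
noncomputable def fib (X : Finset (ℝ × ℝ)) (σ : ℝ × ℝ → ℝ) (s : ℝ) : Finset (ℝ × ℝ) :=
  X.filter fun x => σ x = s

theorem slope_energy (X : Finset (ℝ × ℝ)) (f g : ℝ × ℝ →+ ℝ)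
    (hinj : ∀ x, f x = 0 → g x = 0 → x = 0) (hpos : ∀ x ∈ X, 0 < f x) (L : ℕ)
    (hL : Nat.log 2 X.card < L) :
    ∃ Ex : Finset ℝ, Ex.card ≤ L ∧
      ∑ s ∈ (X.image fun x => g x / f x) \ Ex, (fib X (fun x => g x / f x) s).card ^ 2 ≤
        2 * L * (X + X).card := by
  classical
  set σ : ℝ × ℝ → ℝ := fun x => g x / f x with hσ
  have hg : ∀ x ∈ X, g x = σ x * f x := fun x hx => by
    rw [hσ]; exact (div_mul_cancel₀ _ (hpos x hx).ne').symm
  set T := X.image σ with hT
  set N : ℝ → ℕ := fun s => (fib X σ s).card with hN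
  set k : ℝ → ℕ := fun s => Nat.log 2 (N s) with hk
  set Ex := (range L).biUnion fun i =>
    (T.filter fun s => k s = i).filter fun s => ∀ t ∈ T, k t = i → t ≤ s with hEx
  refine ⟨Ex, ?_, ?_⟩
  · refine card_biUnion_le.trans ((sum_le_sum fun i _ => card_le_one.2 ?_).trans (le_of_eq (by simp)))
    intro a ha b hb
    simp only [mem_filter] at ha hb
    exact le_antisymm (hb.2 a ha.1.1 ha.1.2) (ha.2 b hb.1.1 hb.1.2)
  have hmaps : ∀ s ∈ T \ Ex, k s ∈ range L := fun s _ =>
    mem_range.2 (lt_of_le_of_lt (Nat.log_mono_right (card_filter_le _ _)) hL)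
  rw [← sum_fiberwise_of_maps_to hmaps]
  refine (sum_le_card_nsmul _ _ (2 * (X + X).card) fun i hi => ?_).trans
    (le_of_eq (by simp; ring))
  set C := (T \ Ex).filter fun s => k s = i with hC
  have hnext : ∀ s ∈ C, ∃ t ∈ T, k t = i ∧ s < t ∧ ∀ t' ∈ T, k t' = i → s < t' → t ≤ t' := by
    intro s hs
    simp only [hC, mem_filter, mem_sdiff] at hs
    have hne : (T.filter fun t => k t = i ∧ s < t).Nonempty := by
      by_contra he
      refine hs.1.2 (mem_biUnion.2 ⟨i, hi, mem_filter.2 ⟨mem_filter.2 ⟨hs.1.1, hs.2⟩, ?_⟩⟩)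
      intro t ht hti
      by_contra hlt
      exact he ⟨t, mem_filter.2 ⟨ht, hti, not_le.1 hlt⟩⟩
    obtain ⟨t, ht, hmin⟩ := exists_min_image _ id hne
    simp only [mem_filter] at ht
    exact ⟨t, ht.1, ht.2.1, ht.2.2, fun t' h1 h2 h3 => hmin t' (mem_filter.2 ⟨h1, h2, h3⟩)⟩
  choose! nx hnxT hnxk hnxlt hnxmin using hnext
  set S : ℝ → Finset (ℝ × ℝ) := fun s => fib X σ s + fib X σ (nx s) with hS
  have hmem : ∀ {s x}, x ∈ fib X σ s → x ∈ X ∧ 0 < f x ∧ g x = s * f x := fun {s x} hx => by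
    obtain ⟨h1, h2⟩ := mem_filter.1 hx
    exact ⟨h1, hpos x h1, h2 ▸ hg x h1⟩
  have hcard : ∀ s ∈ C, (S s).card = N s * N (nx s) := by
    intro s hs
    refine card_add_iff.2 ?_
    rintro ⟨a, b⟩ hab ⟨a', b'⟩ hab' h
    simp only [Set.mem_prod, mem_coe] at hab hab'
    obtain ⟨-, -, ga⟩ := hmem hab.1
    obtain ⟨-, -, gb⟩ := hmem hab.2
    obtain ⟨-, -, ga'⟩ := hmem hab'.1
    obtain ⟨-, -, gb'⟩ := hmem hab'.2
    have hf := congrArg f h
    have hg' := congrArg g h
    simp only [map_add] at hf hg'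
    rw [ga, gb, ga', gb'] at hg'
    have h0 : (nx s - s) * (f b - f b') = 0 := by linear_combination hg' - s * hf
    have hb0 : f b = f b' := by
      rcases mul_eq_zero.1 h0 with h1 | h1
      · exact absurd (sub_eq_zero.1 h1) (hnxlt s hs).ne'
      · exact sub_eq_zero.1 h1
    have hbb : b = b' := sub_eq_zero.1 (hinj _ (by rw [map_sub, hb0, sub_self])
      (by rw [map_sub, gb, gb', hb0, sub_self]))
    subst hbb
    exact Prod.ext (add_right_cancel h) rfl
  have hbetween : ∀ s ∈ C, ∀ z ∈ S s, 0 < f z ∧ s * f z < g z ∧ g z < nx s * f z := by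
    intro s hs z hz
    obtain ⟨a, ha, b, hb, rfl⟩ := mem_add.1 hz
    obtain ⟨-, fa, ga⟩ := hmem ha
    obtain ⟨-, fb, gb⟩ := hmem hb
    have hlt := hnxlt s hs
    rw [map_add, map_add, ga, gb]
    refine ⟨add_pos fa fb, ?_, ?_⟩ <;> nlinarith
  have hsum : ∑ s ∈ C, N s * N (nx s) ≤ (X + X).card := by
    rw [← sum_congr rfl hcard, ← card_biUnion]
    · refine card_le_card (biUnion_subset.2 fun s _ => add_subset_add ?_ ?_) <;>
        exact filter_subset _ _
    · have key : ∀ s ∈ C, ∀ t ∈ C, s < t → Disjoint (S s) (S t) := by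
        intro s hs t ht hst
        rw [disjoint_left]
        intro z h1 h2
        obtain ⟨hf, -, hhi⟩ := hbetween s hs z h1
        obtain ⟨-, hlo, -⟩ := hbetween t ht z h2
        simp only [hC, mem_filter, mem_sdiff] at ht
        have := hnxmin s hs t ht.1.1 ht.2 hst
        nlinarith
      intro s hs t ht hst
      rcases lt_or_gt_of_ne hst with h | h
      · exact key s hs t ht h
      · exact (key t ht s hs h).symm
  refine le_trans ?_ (Nat.mul_le_mul_left 2 hsum)
  rw [mul_sum]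
  refine sum_le_sum fun s hs => ?_
  have hpos' : ∀ t ∈ T, 0 < N t := fun t ht => by
    obtain ⟨x, hx, hxt⟩ := mem_image.1 ht
    exact card_pos.2 ⟨x, mem_filter.2 ⟨hx, hxt⟩⟩
  have h1 : N s < 2 ^ (k s + 1) := Nat.lt_pow_succ_log_self (by norm_num) _
  have h2 : 2 ^ k (nx s) ≤ N (nx s) :=
    Nat.pow_log_le_self 2 (hpos' _ (hnxT s hs)).ne'
  have h3 : k (nx s) = k s := by
    rw [hnxk s hs]; simp only [hC, mem_filter] at hs; exact hs.2.symm
  rw [h3] at h2
  rw [pow_succ] at h1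
  nlinarith

/-- Orthogonal pairs `(u, w)` with `u.1 > 0` and `w.2 > 0`. -/
theorem orth_quadrant (U W : Finset (ℝ × ℝ)) (M L : ℕ) (hU : (U + U).card ≤ M)
    (hW : (W + W).card ≤ M) (hUW : (U + W).card ≤ M) (hLU : Nat.log 2 U.card < L)
    (hLW : Nat.log 2 W.card < L) :
    ((U ×ˢ W).filter fun z => 0 < z.1.1 ∧ 0 < z.2.2 ∧ z.1.1 * z.2.1 + z.1.2 * z.2.2 = 0).card ≤
      4 * L * M := by
  classical
  set U' := U.filter fun u => 0 < u.1 with hU'
  set W' := W.filter fun w => 0 < w.2 with hW'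
  let σ : ℝ × ℝ → ℝ := fun u => u.2 / u.1
  let τ : ℝ × ℝ → ℝ := fun w => -w.1 / w.2
  obtain ⟨EU, hEU, hsU⟩ := slope_energy U' (AddMonoidHom.fst ℝ ℝ) (AddMonoidHom.snd ℝ ℝ)
    (fun x h1 h2 => Prod.ext h1 h2) (fun x hx => (mem_filter.1 hx).2) L
    (lt_of_le_of_lt (Nat.log_mono_right (card_filter_le _ _)) hLU)
  obtain ⟨EW, hEW, hsW⟩ := slope_energy W' (AddMonoidHom.snd ℝ ℝ) (-AddMonoidHom.fst ℝ ℝ)
    (fun x h1 h2 => Prod.ext (neg_eq_zero.1 h2) h1) (fun x hx => (mem_filter.1 hx).2) L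
    (lt_of_le_of_lt (Nat.log_mono_right (card_filter_le _ _)) hLW)
  change ∑ s ∈ U'.image σ \ EU, (fib U' σ s).card ^ 2 ≤ _ at hsU
  change ∑ s ∈ W'.image τ \ EW, (fib W' τ s).card ^ 2 ≤ _ at hsW
  set A : ℝ → ℕ := fun s => (fib U' σ s).card with hA
  set B : ℝ → ℕ := fun s => (fib W' τ s).card with hB
  have hsUM : (U' + U').card ≤ M :=
    (card_le_card (add_subset_add (filter_subset _ _) (filter_subset _ _))).trans hU
  have hsWM : (W' + W').card ≤ M :=
    (card_le_card (add_subset_add (filter_subset _ _) (filter_subset _ _))).trans hW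
  have hone : ∀ s, A s * B s ≤ M := by
    intro s
    refine le_trans (le_of_eq (card_add_iff.2 ?_).symm) ((card_le_card (add_subset_add
      ((filter_subset _ _).trans (filter_subset _ _))
      ((filter_subset _ _).trans (filter_subset _ _)))).trans hUW)
    rintro ⟨a, b⟩ hab ⟨a', b'⟩ hab' h
    simp only [Set.mem_prod, mem_coe, fib, hU', hW', mem_filter, σ, τ] at hab hab'
    have e1 : a.2 = s * a.1 := by rw [← hab.1.2, div_mul_cancel₀ _ hab.1.1.2.ne']
    have e2 : a'.2 = s * a'.1 := by rw [← hab'.1.2, div_mul_cancel₀ _ hab'.1.1.2.ne']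
    have e3 : b.1 = -(s * b.2) := by rw [← hab.2.2, div_mul_cancel₀ _ hab.2.1.2.ne', neg_neg]
    have e4 : b'.1 = -(s * b'.2) := by
      rw [← hab'.2.2, div_mul_cancel₀ _ hab'.2.1.2.ne', neg_neg]
    have h1 := congrArg Prod.fst h
    have h2 := congrArg Prod.snd h
    simp only [Prod.fst_add, Prod.snd_add] at h1 h2
    rw [e3, e4] at h1
    rw [e1, e2] at h2
    have h0 : (1 + s ^ 2) * (a.1 - a'.1) = 0 := by linear_combination h1 + s * h2
    have ha : a.1 = a'.1 := sub_eq_zero.1 ((mul_eq_zero.1 h0).resolve_left (by positivity))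
    have haa : a = a' := Prod.ext ha (by rw [e1, e2, ha])
    subst haa
    exact Prod.ext rfl (add_left_cancel h)
  have hbound : ((U ×ˢ W).filter fun z =>
      0 < z.1.1 ∧ 0 < z.2.2 ∧ z.1.1 * z.2.1 + z.1.2 * z.2.2 = 0).card ≤
      ∑ s ∈ U'.image σ, A s * B s := by
    refine (card_le_card (t := (U'.image σ).biUnion fun s => fib U' σ s ×ˢ fib W' τ s) ?_).trans
      (card_biUnion_le.trans (le_of_eq (sum_congr rfl fun s _ => card_product _ _)))
    rintro ⟨u, w⟩ hz
    simp only [mem_filter, mem_product] at hz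
    obtain ⟨⟨hu, hw⟩, hu1, hw2, ho⟩ := hz
    have hu' : u ∈ U' := mem_filter.2 ⟨hu, hu1⟩
    refine mem_biUnion.2 ⟨σ u, mem_image_of_mem _ hu', mem_product.2
      ⟨mem_filter.2 ⟨hu', rfl⟩, mem_filter.2 ⟨mem_filter.2 ⟨hw, hw2⟩, ?_⟩⟩⟩
    simp only [σ, τ]
    rw [div_eq_div_iff hw2.ne' hu1.ne']
    linarith
  refine hbound.trans ?_
  rw [← sum_inter_add_sum_sdiff (U'.image σ) (EU ∪ EW)]
  have hex : ∑ s ∈ U'.image σ ∩ (EU ∪ EW), A s * B s ≤ 2 * L * M := by
    refine (sum_le_card_nsmul _ _ M fun s _ => hone s).trans ?_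
    rw [smul_eq_mul]
    refine Nat.mul_le_mul_right _ ?_
    have := card_union_le EU EW
    have := card_le_card (inter_subset_right : U'.image σ ∩ (EU ∪ EW) ⊆ EU ∪ EW)
    omega
  have ha : ∑ s ∈ U'.image σ \ (EU ∪ EW), A s ^ 2 ≤ 2 * L * M :=
    (sum_le_sum_of_subset (sdiff_subset_sdiff le_rfl subset_union_left)).trans
      (hsU.trans (Nat.mul_le_mul_left _ hsUM))
  have hb : ∑ s ∈ U'.image σ \ (EU ∪ EW), B s ^ 2 ≤ 2 * L * M := by
    refine le_trans ?_ (hsW.trans (Nat.mul_le_mul_left _ hsWM))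
    rw [← sum_filter_ne_zero]
    refine sum_le_sum_of_subset fun s hs => ?_
    simp only [mem_filter, mem_sdiff, mem_union, not_or] at hs ⊢
    refine ⟨?_, hs.1.2.2⟩
    obtain ⟨x, hx⟩ : (fib W' τ s).Nonempty := by
      rw [← card_ne_zero]
      intro h
      exact hs.2 (by simp [hB, h])
    obtain ⟨h1, h2⟩ := mem_filter.1 hx
    exact h2 ▸ mem_image_of_mem _ h1
  have hab : 2 * ∑ s ∈ U'.image σ \ (EU ∪ EW), A s * B s ≤
      ∑ s ∈ U'.image σ \ (EU ∪ EW), A s ^ 2 + ∑ s ∈ U'.image σ \ (EU ∪ EW), B s ^ 2 := by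
    rw [mul_sum, ← sum_add_distrib]
    exact sum_le_sum fun s _ => by rw [← mul_assoc]; exact two_mul_le_add_sq _ _
  rw [show 4 * L * M = 2 * (2 * L * M) by ring]
  omega

/-- All orthogonal pairs of two sets, the first symmetric. -/
theorem orth_pairs (U W : Finset (ℝ × ℝ)) (hsym : -U = U) (M L : ℕ)
    (hU : (U + U).card ≤ M) (hW : (W + W).card ≤ M) (hUW : (U + W).card ≤ M)
    (hLU : Nat.log 2 U.card < L) (hLW : Nat.log 2 W.card < L) :
    ((U ×ˢ W).filter fun z => z.1.1 * z.2.1 + z.1.2 * z.2.2 = 0).card ≤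
      16 * L * M + U.card + W.card + M := by
  classical
  have hUW' : (U + -W).card ≤ M := by
    have : U + -W = -(U + W) := by rw [neg_add, hsym]
    rw [this, card_neg]; exact hUW
  have hW' : (-W + -W).card ≤ M := by
    rw [show -W + -W = -(W + W) from (neg_add W W).symm, card_neg]; exact hW
  have hLW' : Nat.log 2 (-W).card < L := by rwa [card_neg]
  set O := (U ×ˢ W).filter fun z => z.1.1 * z.2.1 + z.1.2 * z.2.2 = 0 with hO
  let Q : Finset (ℝ × ℝ) → Finset ((ℝ × ℝ) × (ℝ × ℝ)) := fun W => (U ×ˢ W).filter fun z =>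
    0 < z.1.1 ∧ 0 < z.2.2 ∧ z.1.1 * z.2.1 + z.1.2 * z.2.2 = 0
  have q1 : (Q W).card ≤ 4 * L * M := orth_quadrant U W M L hU hW hUW hLU hLW
  have q2 : (Q (-W)).card ≤ 4 * L * M := orth_quadrant U (-W) M L hU hW' hUW' hLU hLW'
  -- the four sign patterns, the two degenerate families, and the vertical family
  set Z0 := ({0} : Finset (ℝ × ℝ)) ×ˢ W
  set Z1 := U ×ˢ ({0} : Finset (ℝ × ℝ))
  set V := O.filter fun z => z.1.1 = 0 ∧ z.2.2 = 0
  have hV : V.card ≤ M := by
    refine le_trans (card_le_card_of_injOn (fun z => z.1 + z.2) ?_ ?_) hUW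
    · intro z hz
      simp only [V, hO, mem_coe, mem_filter, mem_product] at hz
      exact add_mem_add hz.1.1.1 hz.1.1.2
    · intro z hz z' hz' h
      simp only [V, mem_coe, mem_filter] at hz hz'
      have h1 := congrArg Prod.fst h
      have h2 := congrArg Prod.snd h
      simp only [Prod.fst_add, Prod.snd_add] at h1 h2
      refine Prod.ext (Prod.ext (hz.2.1.trans hz'.2.1.symm) ?_)
        (Prod.ext ?_ (hz.2.2.trans hz'.2.2.symm))
      · linarith [hz.2.2, hz'.2.2]
      · linarith [hz.2.1, hz'.2.1]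
  have hsub : O ⊆ (Q W ∪ (Q W).image (fun z => (-z.1, z.2))) ∪
      ((Q (-W)).image (fun z => (z.1, -z.2)) ∪ (Q (-W)).image (fun z => (-z.1, -z.2))) ∪
      (Z0 ∪ Z1 ∪ V) := by
    rintro ⟨u, w⟩ hz
    have hz' := hz
    simp only [hO, mem_filter, mem_product] at hz
    obtain ⟨⟨hu, hw⟩, ho⟩ := hz
    have hnu : -u ∈ U := by rw [← hsym]; exact neg_mem_neg hu
    have hnw : -w ∈ -W := neg_mem_neg hw
    simp only [mem_union, mem_image, Prod.mk.injEq, Q, mem_filter, mem_product]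
    by_cases hu0 : u = 0
    · exact Or.inr (Or.inl (Or.inl (by simp [Z0, hu0, hw])))
    by_cases hw0 : w = 0
    · exact Or.inr (Or.inl (Or.inr (by simp [Z1, hw0, hu])))
    by_cases hu1 : u.1 = 0
    · refine Or.inr (Or.inr (mem_filter.2 ⟨hz', hu1, ?_⟩))
      rw [hu1, zero_mul, zero_add] at ho
      exact (mul_eq_zero.1 ho).resolve_left fun h => hu0 (Prod.ext hu1 h)
    have hw2 : w.2 ≠ 0 := by
      intro h
      rw [h, mul_zero, add_zero] at ho
      exact hw0 (Prod.ext ((mul_eq_zero.1 ho).resolve_left hu1) h)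
    left
    rcases lt_or_gt_of_ne hu1 with hu1 | hu1 <;> rcases lt_or_gt_of_ne hw2 with hw2 | hw2
    · refine Or.inr (Or.inr ⟨(-u, -w), ⟨⟨hnu, hnw⟩, ?_, ?_, ?_⟩, by simp, by simp⟩)
      all_goals simp only [Prod.fst_neg, Prod.snd_neg]; linarith
    · refine Or.inl (Or.inr ⟨(-u, w), ⟨⟨hnu, hw⟩, ?_, ?_, ?_⟩, by simp, rfl⟩)
      all_goals simp only [Prod.fst_neg, Prod.snd_neg]; linarith
    · refine Or.inr (Or.inl ⟨(u, -w), ⟨⟨hu, hnw⟩, ?_, ?_, ?_⟩, rfl, by simp⟩)
      all_goals simp only [Prod.fst_neg, Prod.snd_neg]; linarith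
    · exact Or.inl (Or.inl ⟨⟨hu, hw⟩, hu1, hw2, ho⟩)
  have hc := (card_le_card hsub).trans ((card_union_le _ _).trans (Nat.add_le_add
    ((card_union_le _ _).trans (Nat.add_le_add (card_union_le _ _) (card_union_le _ _)))
    ((card_union_le _ _).trans (Nat.add_le_add_right (card_union_le _ _) _))))
  simp only [Z0, Z1] at hc
  rw [show 16 * L * M = 4 * (4 * L * M) by ring]
  have i1 := card_image_le (s := Q W) (f := fun z => (-z.1, z.2))
  have i2 := card_image_le (s := Q (-W)) (f := fun z => (z.1, -z.2))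
  have i3 := card_image_le (s := Q (-W)) (f := fun z => (-z.1, -z.2))

  have e1 : (({0} : Finset (ℝ × ℝ)) ×ˢ W).card = W.card := by simp
  have e2 : (U ×ˢ ({0} : Finset (ℝ × ℝ))).card = U.card := by simp
  omega

/-- Every point of a planar set of small doubling sees many distinct (squared) distances. -/
theorem pinned_of_small_doubling (P : Finset (ℝ × ℝ)) (hn : 2 ≤ P.card) (p : ℝ × ℝ)
    (hp : p ∈ P) :
    P.card ^ 5 ≤ 152 * (Nat.log 2 P.card + 1) *
      ((P.erase p).image fun q => (q.1 - p.1) ^ 2 + (q.2 - p.2) ^ 2).card *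
      (P + P).card ^ 4 := by
  classical
  set δ : ℝ × ℝ → ℝ := fun q => (q.1 - p.1) ^ 2 + (q.2 - p.2) ^ 2
  set n := P.card with hn'
  set D := ((P.erase p).image δ).card with hD
  have hne : P.Nonempty := ⟨p, hp⟩
  have hc : ({-p - p} : Finset (ℝ × ℝ)).card = 1 := card_singleton _
  set U := P - P with hUdef
  set W := P + P + {-p - p} with hWdef
  -- Plünnecke: all sumsets in use are small
  set M := max (max (U + U).card (W + W).card) (U + W).card with hM
  have hPlun : n ^ 3 * M ≤ (P + P).card ^ 4 := by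
    have key : ∀ a b : ℕ, a + b = 4 → n ^ 3 * (a • P - b • P).card ≤ (P + P).card ^ 4 := by
      intro a b hab
      have h := pluennecke_ruzsa_inequality_nsmul_sub_nsmul_add hne P a b
      rw [hab] at h
      have hn0 : (0 : ℚ≥0) < (n : ℚ≥0) := by exact_mod_cast card_pos.2 hne
      rw [div_pow, div_mul_eq_mul_div, le_div_iff₀ (pow_pos hn0 4)] at h
      have h' : ((a • P - b • P).card : ℚ≥0) * (n : ℚ≥0) ^ 4 ≤
          ((P + P).card : ℚ≥0) ^ 4 * (n : ℚ≥0) := h
      have h'' : (a • P - b • P).card * n ^ 4 ≤ (P + P).card ^ 4 * n := by exact_mod_cast h'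
      have hn1 : 0 < n := card_pos.2 hne
      refine Nat.le_of_mul_le_mul_right ?_ hn1
      calc n ^ 3 * (a • P - b • P).card * n = (a • P - b • P).card * n ^ 4 := by ring
        _ ≤ _ := h''
    have h22 : U + U = 2 • P - 2 • P := by
      rw [hUdef, two_nsmul, sub_add_sub_comm]
    have h40 : W + W = (4 • P - 0 • P) + ({-p - p} + {-p - p}) := by
      rw [hWdef, zero_nsmul, sub_zero, show (4 : ℕ) = 2 + 2 from rfl, add_nsmul, two_nsmul]
      exact add_add_add_comm _ _ _ _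
    have h31 : U + W = (3 • P - 1 • P) + {-p - p} := by
      rw [hUdef, hWdef, one_nsmul, show (3 : ℕ) = 1 + 2 from rfl, add_nsmul, one_nsmul, two_nsmul,
        ← add_assoc, sub_add_eq_add_sub]
    have tr : ∀ (A : Finset (ℝ × ℝ)) (c : ℝ × ℝ), (A + {c}).card = A.card := fun A c => by
      rw [add_singleton, card_vadd_finset]
    rw [hM, ← Nat.mul_max_mul_left, ← Nat.mul_max_mul_left]
    refine max_le (max_le ?_ ?_) ?_
    · rw [h22]; exact key 2 2 rfl
    · rw [h40, singleton_add_singleton, tr]; exact key 4 0 rfl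
    · rw [h31, tr]; exact key 3 1 rfl
  -- sizes
  have hUne : U.Nonempty := hne.sub hne
  have hWne : W.Nonempty := (hne.add hne).add (singleton_nonempty _)
  have hUM : U.card ≤ M :=
    (card_le_card_add_right hUne).trans (le_trans (le_max_left _ _) (le_max_left _ _))
  have hWM : W.card ≤ M :=
    (card_le_card_add_right hWne).trans (le_trans (le_max_right _ _) (le_max_left _ _))
  set L := 2 * (Nat.log 2 n + 1) with hL
  have hlog : ∀ k ≤ n * n, Nat.log 2 k < L := by
    intro k hk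
    refine Nat.log_lt_of_lt_pow' (by omega) (lt_of_le_of_lt hk ?_)
    have := Nat.lt_pow_succ_log_self (by norm_num : 1 < 2) n
    rw [hL, two_mul, pow_add]
    exact Nat.mul_lt_mul'' this this
  have hUn : U.card ≤ n * n := card_sub_le
  have hWn : W.card ≤ n * n := by
    rw [hWdef, add_singleton, card_vadd_finset]
    exact card_add_le
  have horth := orth_pairs U W (by rw [hUdef, neg_sub]) M L
    (le_trans (le_max_left _ _) (le_max_left _ _))
    (le_trans (le_max_right _ _) (le_max_left _ _)) (le_max_right _ _)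
    (hlog _ hUn) (hlog _ hWn)
  -- equidistant pairs
  set R := P.erase p with hR
  set E := (R ×ˢ R).filter fun z => δ z.1 = δ z.2 with hE
  have hEO : E.card ≤ ((U ×ˢ W).filter fun z => z.1.1 * z.2.1 + z.1.2 * z.2.2 = 0).card := by
    refine card_le_card_of_injOn (fun z => (z.1 - z.2, z.1 + z.2 + (-p - p))) ?_ ?_
    · intro z hz
      simp only [hE, hR, mem_coe, mem_filter, mem_product, mem_erase] at hz
      simp only [mem_coe, mem_filter, mem_product]
      refine ⟨⟨sub_mem_sub hz.1.1.2 hz.1.2.2,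
        add_mem_add (add_mem_add hz.1.1.2 hz.1.2.2) (mem_singleton_self _)⟩, ?_⟩
      have := hz.2
      simp only [δ] at this
      simp only [Prod.fst_sub, Prod.snd_sub, Prod.fst_add, Prod.snd_add, Prod.fst_neg,
        Prod.snd_neg]
      linarith
    · intro z _ z' _ h
      simp only [Prod.mk.injEq, Prod.ext_iff, Prod.fst_sub, Prod.snd_sub, Prod.fst_add,
        Prod.snd_add] at h ⊢
      refine ⟨⟨?_, ?_⟩, ?_, ?_⟩ <;> linarith [h.1.1, h.1.2, h.2.1, h.2.2]
  have hfib : E.card = ∑ t ∈ R.image δ, (R.filter fun q => δ q = t).card ^ 2 := by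
    rw [card_eq_sum_card_fiberwise (f := fun z => δ z.1) (t := R.image δ) fun z hz => by
      simp only [hE, mem_coe, mem_filter, mem_product] at hz
      exact mem_image_of_mem _ hz.1.1]
    refine sum_congr rfl fun t _ => ?_
    rw [sq, ← card_product]
    refine congrArg card ?_
    ext z
    simp only [hE, mem_filter, mem_product]
    constructor
    · rintro ⟨⟨⟨h1, h2⟩, h3⟩, h4⟩
      exact ⟨⟨h1, h4⟩, h2, h3.symm.trans h4⟩
    · rintro ⟨⟨h1, h4⟩, h2, h5⟩
      exact ⟨⟨⟨h1, h2⟩, h4.trans h5.symm⟩, h4⟩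
  have hcs : R.card ^ 2 ≤ D * E.card := by
    rw [hfib, card_eq_sum_card_image δ R]
    exact sq_sum_le_card_mul_sum_sq
  have hRn : n ≤ 2 * R.card := by
    rw [hR, card_erase_of_mem hp]; omega
  have hE' : E.card ≤ 19 * L * M := by
    have : M ≤ L * M := Nat.le_mul_of_pos_left _ (by omega)
    have : E.card ≤ 16 * (L * M) + M + M + M := by rw [← mul_assoc]; omega
    rw [mul_assoc]; omega
  calc n ^ 5 = n ^ 3 * n ^ 2 := by ring
    _ ≤ n ^ 3 * (4 * R.card ^ 2) := by
        refine Nat.mul_le_mul_left _ ?_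
        calc n ^ 2 ≤ (2 * R.card) ^ 2 := Nat.pow_le_pow_left hRn 2
          _ = _ := by ring
    _ ≤ n ^ 3 * (4 * (D * (19 * L * M))) := by gcongr; exact hcs.trans (by gcongr)
    _ = 76 * L * D * (n ^ 3 * M) := by ring
    _ ≤ 76 * L * D * (P + P).card ^ 4 := by gcongr
    _ = _ := by rw [hL]; ring

end Vale.Agent.Doubling
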